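import Crest.Statements.S0194
import Crest.Agent.R143.CurU_894

set_option autoImplicit false
open Crest.ProbabilityR.Voronoi
open Crest Crest.ProbabilityR Crest.ProbabilityR.Voronoi

namespace Crest.Agent.S0194

/-- Critical Voronoi percolation of a planar Poisson process of intensity ε⁻², fair independent colours. D is a bounded Jordan domain; φ maps D conformally onto the upper half-plane, extends continuously to the boundary except at d where it blows up, and sends boundary points a, b, c to 0, x, 1 (0 < x < 1). The probability that a connected black set in the closure of D joins arc ab to arc cd tends as ε → 0⁺ to the ratio of the integrals of (u(1−u))^(−2/3) on [0,x] and on [0,1]. -/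
theorem result
    (D : Set ℂ) (hD : IsOpen D) (hDb : Bornology.IsBounded D) (hDc : IsConnected D)
    (γ : ℝ → ℂ) (hγ : Continuous γ) (hγp : Function.Periodic γ 1) (hγi : Set.InjOn γ (Set.Ico 0 1))
    (hγD : Set.range γ = frontier D)
    (φ : ℂ → ℂ) (hφ : DifferentiableOn ℂ φ D) (hφi : Set.InjOn φ D)
    (hφD : φ '' D = {z : ℂ | 0 < z.im})
    (a b c d : ℂ) (ha : a ∈ frontier D) (hb : b ∈ frontier D) (hc : c ∈ frontier D)
    (hd : d ∈ frontier D)
    (hφc : ContinuousOn φ (closure D \ {d}))
    (hφd : Filter.Tendsto (fun z => ‖φ z‖) (nhdsWithin d D) Filter.atTop)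
    (x : ℝ) (hx0 : 0 < x) (hx1 : x < 1)
    (hφa : φ a = 0) (hφb : φ b = x) (hφc1 : φ c = 1) :
    Filter.Tendsto
      (fun ε : ℝ => sampleLaw (crossingEvent ε D
        {z | z ∈ frontier D ∧ z ≠ d ∧ (φ z).im = 0 ∧ 0 ≤ (φ z).re ∧ (φ z).re ≤ x}
        ({z | z ∈ frontier D ∧ z ≠ d ∧ (φ z).im = 0 ∧ 1 ≤ (φ z).re} ∪ {d})))
      (nhdsWithin 0 (Set.Ioi 0))
      (nhds (ENNReal.ofReal (crossingFormula x))) := by
  exact Crest.Agent.R143.Finx894.literal_of Crest.Agent.R143.CurUx894.leaf D hD hDb hDc γ hγ hγp hγi hγD φ hφ hφi hφD a b c d ha hb hc hd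
    hφc hφd x hx0 hx1 hφa hφb hφc1

end Crest.Agent.S0194
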